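import Vale.Agent.Lib.P090Norm.Transfer

set_option autoImplicit false

namespace Vale.Agent.Results.P090.FreeNormNoBAP

open Vale.Agent.P090Norm

/-- Some countable uniformly discrete metric space `M` with base point `o` has a Lipschitz-free
space `F(M)` (the Banach space `X`, with `δ : M → X`) that fails the bounded approximation
property. -/
theorem result :
    ∃ (M : Type) (_ : MetricSpace M) (o : M)
      (X : Type) (_ : NormedAddCommGroup X) (_ : NormedSpace ℝ X) (δ : M → X),
      (∃ c : ℝ, 0 < c ∧ ∀ x y : M, x ≠ y → c ≤ dist x y) ∧ Countable M ∧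
      CompleteSpace X ∧ IsLipschitzFree M o X δ ∧
      ¬ BAP X :=
  ⟨P090H22.MM, inferInstance, ⟨0, 1, none⟩, P090H22.LipFree P090H22.MM ⟨0, 1, none⟩,
    inferInstance, inferInstance, P090H22.del _, P090H22.uniformlyDiscrete_MM, inferInstance,
    completeSpace _ _, isLipschitzFree _ _, not_BAP _⟩

end Vale.Agent.Results.P090.FreeNormNoBAP
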