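import Vale.Agent.Lib.P090.Defs
import Vale.Agent.Lib.P090.Main

/-!
P090 Q1 answered in the negative: some uniformly discrete metric space has a
Lipschitz-free space without the bounded approximation property.
-/

namespace Vale.Agent.Results.P090.NoBAP

open Vale.Agent.P090

/-- There is a uniformly discrete metric space `M` such that the Lipschitz-free space of
`M` fails the bounded approximation property. -/
theorem result : ∃ (M : Type) (_ : MetricSpace M) (o : M),
    UniformlyDiscrete M ∧ ¬ HasBAP (LipFree M o) :=
  main

end Vale.Agent.Results.P090.NoBAP
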