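import Mathlib
import Vale.Agent.Lib.P090H22.Main

set_option autoImplicit false

namespace Vale.Agent.Results.P090.UDFreeNoBAP

open P090H22

/-- There is a nonempty countable uniformly discrete metric space `M` such that, whatever the base
point `o`, the Lipschitz-free space of `(M, o)` fails the bounded approximation property. -/
theorem result : ∃ (M : Type) (_ : MetricSpace M), Nonempty M ∧ Countable M ∧
    UniformlyDiscrete M ∧ ∀ o : M, ¬ BAP (LipFree M o) :=
  ⟨MM, inferInstance, ⟨⟨0, 1, none⟩⟩, inferInstance, uniformlyDiscrete_MM, not_BAP⟩

end Vale.Agent.Results.P090.UDFreeNoBAP
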